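import Vale.Agent.P286.H761.Xi0

/-!
# The homotopy form of the contractions of totals
-/

set_option linter.all false

namespace Vale.Agent.P286EX

open CategoryTheory Vale.Agent.P286.H761 Vale.Agent.P286.H847 Vale.Agent.P286.H847.GD

noncomputable section

namespace Cos

variable {X : CS}

/-- The general contraction, as a homotopy. -/
theorem htpy_shft {Y : GD} (a : CS.Aug X Y) (ε : ℕ → ℂ) (s : ∀ k, Hom (X.X (k + 1)) (X.X k))
    (r : Hom (X.X 0) Y) (h0 : ∀ x, ε 0 • (s 0).f (X.dl 0 x) = x - a.e.f (r.f x))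
    (hk : ∀ k x, ε (k + 1) • (s (k + 1)).f (X.dl (k + 1) x) = x - X.dl k (ε k • (s k).f x))
    (v : X.Tot.V) : X.Tot.d (CS.shft ε s v) + CS.shft ε s (X.Tot.d v) =
      v - a.tot.f ((CS.fromZero r).f v) := by
  funext k
  match k with
  | 0 =>
    change (X.X 0).d (ε 0 • (s 0).f (v 1)) + ε 0 • (s 0).f ((-1 : ℂ) ^ (0 + 1) •
        (X.X (0 + 1)).d (v (0 + 1)) + X.dl 0 (v 0)) = v 0 - (a.tot.f (r.f (v 0)) : ∀ k, (X.X k).V) 0
    rw [a.tot_zero, map_add, smul_add, h0, map_smul, map_smul, (s 0).comm]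
    simp
  | (k + 1) =>
    change (-1 : ℂ) ^ (k + 1) • (X.X (k + 1)).d (ε (k + 1) • (s (k + 1)).f (v (k + 1 + 1))) +
        X.dl k (ε k • (s k).f (v (k + 1))) + ε (k + 1) • (s (k + 1)).f ((-1 : ℂ) ^ (k + 1 + 1) •
        (X.X (k + 1 + 1)).d (v (k + 1 + 1)) + X.dl (k + 1) (v (k + 1)))
      = v (k + 1) - (a.tot.f (r.f (v 0)) : ∀ k, (X.X k).V) (k + 1)
    rw [a.tot_succ, map_add, smul_add, hk, map_smul, map_smul, map_smul, (s (k + 1)).comm,
      smul_comm (ε (k + 1)), pow_succ (-1 : ℂ) (k + 1)]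
    simp only [mul_neg, mul_one, neg_smul, sub_zero]
    abel

/-- Extra codegeneracies on the last side. -/
theorem htpy_last {Y : GD} (a : CS.Aug X Y) (s : ∀ k, Hom (X.X (k + 1)) (X.X k))
    (r : Hom (X.X 0) Y) (h00 : ∀ x, (s 0).f ((X.fc 0 0).f x) = a.e.f (r.f x))
    (hlast : ∀ k x, (s k).f ((X.fc k (k + 1)).f x) = x)
    (hs : ∀ k, ∀ i ≤ k + 1, ∀ x, (s (k + 1)).f ((X.fc (k + 1) i).f x) = (X.fc k i).f ((s k).f x))
    (v : X.Tot.V) : X.Tot.d (CS.shft (fun k => (-1 : ℂ) ^ (k + 1)) s v) +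
      CS.shft (fun k => (-1 : ℂ) ^ (k + 1)) s (X.Tot.d v) = v - a.tot.f ((CS.fromZero r).f v) := by
  refine htpy_shft a (fun k => (-1 : ℂ) ^ (k + 1)) s r ?_ ?_ v
  · intro x
    rw [CS.dl_apply, Finset.sum_range_succ, Finset.sum_range_succ, Finset.sum_range_zero]
    simp [h00, hlast 0]
    abel
  · intro k x
    rw [CS.dl_apply, Finset.sum_range_succ, map_add, map_smul, hlast (k + 1), map_sum, smul_add,
      smul_smul, CS.dl_apply, Finset.smul_sum]
    have h1 : (-1 : ℂ) ^ (k + 1 + 1) * (-1 : ℂ) ^ (k + 2) = 1 := by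
      rw [show k + 1 + 1 = k + 2 by ring, ← mul_pow]; norm_num
    rw [h1, one_smul, add_comm _ x, sub_eq_add_neg, ← Finset.sum_neg_distrib]
    congr 1
    refine Finset.sum_congr rfl fun i hi => ?_
    rw [Finset.mem_range] at hi
    rw [map_smul, hs k i (by omega), map_smul, pow_succ (-1 : ℂ) (k + 1)]
    simp only [mul_neg, mul_one, neg_smul]
    rw [smul_comm]

/-- Extra codegeneracies on the first side. -/
theorem htpy_first {Y : GD} (a : CS.Aug X Y) (s : ∀ k, Hom (X.X (k + 1)) (X.X k))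
    (r : Hom (X.X 0) Y) (h01 : ∀ x, (s 0).f ((X.fc 0 1).f x) = a.e.f (r.f x))
    (hfirst : ∀ k x, (s k).f ((X.fc k 0).f x) = x)
    (hs : ∀ k, ∀ i ≤ k + 1, ∀ x,
      (s (k + 1)).f ((X.fc (k + 1) (i + 1)).f x) = (X.fc k i).f ((s k).f x))
    (v : X.Tot.V) : X.Tot.d (CS.shft (fun _ => (1 : ℂ)) s v) +
      CS.shft (fun _ => (1 : ℂ)) s (X.Tot.d v) = v - a.tot.f ((CS.fromZero r).f v) := by
  refine htpy_shft a (fun _ => 1) s r ?_ ?_ v
  · intro x
    rw [CS.dl_apply, Finset.sum_range_succ, Finset.sum_range_succ, Finset.sum_range_zero]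
    simp [h01, hfirst 0]
    abel
  · intro k x
    rw [CS.dl_apply, Finset.sum_range_succ', map_add, map_smul, hfirst (k + 1), map_sum, one_smul,
      pow_zero, one_smul, one_smul, CS.dl_apply, add_comm _ x, sub_eq_add_neg,
      ← Finset.sum_neg_distrib]
    congr 1
    refine Finset.sum_congr rfl fun i hi => ?_
    rw [Finset.mem_range] at hi
    rw [map_smul, hs k i (by omega), pow_succ]
    simp

theorem fromZero_apply {Y : GD} (r : Hom (X.X 0) Y) (v : X.Tot.V) :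
    (CS.fromZero r).f v = r.f (v 0) := rfl

end Cos

variable {C : Type 1} [Category.{0} C] {P : CO C} {A : C}

/-- The retraction of the total onto the value at the augmentation. -/
def retOf (F : GF C) (P : CO C) {A : C} (r : P.P 0 ⟶ A) : Hom (F.cs P).Tot (F.obj A) :=
  CS.fromZero (X := F.cs P) (F.map r)

theorem retOf_apply (F : GF C) (P : CO C) {A : C} (r : P.P 0 ⟶ A) (v : (F.cs P).Tot.V) :
    (retOf F P r).f v = (F.map r).f (v 0) := rfl

theorem retOf_aug (F : GF C) (P : CO C) {A : C} (e : A ⟶ P.P 0)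
    (h : e ≫ P.fc 0 0 = e ≫ P.fc 0 1) (r : P.P 0 ⟶ A) (er : e ≫ r = 𝟙 A) (y : (F.obj A).V) :
    (retOf F P r).f ((augOf F P e h).tot.f y) = y := by
  rw [retOf_apply, CS.Aug.tot_zero]
  exact F.map_eq_id er y

/-- The shift by arrows. -/
def shOf (F : GF C) (P : CO C) (ε : ℕ → ℂ) (s : ∀ k, P.P (k + 1) ⟶ P.P k) :
    (F.cs P).Tot.V →ₗ[ℂ] (F.cs P).Tot.V := CS.shft (X := F.cs P) ε fun k => F.map (s k)

theorem shOf_apply (F : GF C) (P : CO C) (ε : ℕ → ℂ) (s : ∀ k, P.P (k + 1) ⟶ P.P k)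
    (v : (F.cs P).Tot.V) (k : ℕ) :
    (shOf F P ε s v : ∀ k, (F.obj (P.P k)).V) k = ε k • (F.map (s k)).f (v (k + 1)) := rfl

theorem shOf_gr (F : GF C) (P : CO C) (ε : ℕ → ℂ) (s : ∀ k, P.P (k + 1) ⟶ P.P k) (m : ℤ)
    (v : (F.cs P).Tot.V) (hv : v ∈ (F.cs P).Tot.gr m) : shOf F P ε s v ∈ (F.cs P).Tot.gr (m - 1) :=
  CS.shft_gr _ _ m v hv

theorem shOf_aug (F : GF C) (P : CO C) (ε : ℕ → ℂ) (s : ∀ k, P.P (k + 1) ⟶ P.P k) {A : C}
    (e : A ⟶ P.P 0) (h : e ≫ P.fc 0 0 = e ≫ P.fc 0 1) (y : (F.obj A).V) :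
    shOf F P ε s ((augOf F P e h).tot.f y) = 0 := by
  funext k
  rw [shOf_apply, CS.Aug.tot_succ, map_zero, smul_zero]
  rfl

/-- The shift commutes with natural families of degree `p` up to the sign. -/
theorem shOf_coch {F G : GF C} {p : ℤ} (a : GCoch F G p) (P : CO C) (ε : ℕ → ℂ)
    (s : ∀ k, P.P (k + 1) ⟶ P.P k) (v : (F.cs P).Tot.V) :
    a.tot P (shOf F P ε s v) = sz p • shOf G P ε s (a.tot P v) := by
  funext k
  change sz p ^ k • a.f (P.P k) (ε k • (F.map (s k)).f (v (k + 1))) =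
    sz p • ε k • (G.map (s k)).f (sz p ^ (k + 1) • a.f (P.P (k + 1)) (v (k + 1)))
  rw [map_smul, map_smul, a.nat, smul_smul, smul_smul, smul_smul, pow_succ]
  congr 1
  linear_combination (-(sz p ^ k * ε k)) * sz_mul_self p

theorem retOf_coch {F G : GF C} {p : ℤ} (a : GCoch F G p) (P : CO C) {A : C} (r : P.P 0 ⟶ A)
    (v : (F.cs P).Tot.V) : a.f A ((retOf F P r).f v) = (retOf G P r).f (a.tot P v) := by
  rw [retOf_apply, retOf_apply, a.nat, GCoch.tot_apply, pow_zero, one_smul]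

/-- The homotopy of a contraction on the first side. -/
def hF (c : ConF P A) (F : GF C) : (F.cs P).Tot.V →ₗ[ℂ] (F.cs P).Tot.V :=
  shOf F P (fun _ => 1) c.s

theorem hF_apply (c : ConF P A) (F : GF C) (v : (F.cs P).Tot.V) (k : ℕ) :
    (hF c F v : ∀ k, (F.obj (P.P k)).V) k = (F.map (c.s k)).f (v (k + 1)) := one_smul _ _

/-- **Contraction** on the first side: `d H + H d = 1 - aug r`. -/
theorem hF_eq (c : ConF P A) (F : GF C) (v : (F.cs P).Tot.V) :
    (F.cs P).Tot.d (hF c F v) + hF c F ((F.cs P).Tot.d v) =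
      v - (augOf F P c.e c.aug).tot.f ((retOf F P c.r).f v) :=
  Cos.htpy_first (augOf F P c.e c.aug) (fun k => F.map (c.s k)) (F.map c.r)
    (fun x => F.map_eq c.one x) (fun k x => F.map_eq_id (c.first k) x)
    (fun k i hi x => F.map_eq (c.rest k i hi) x) v

/-- The homotopy of a contraction on the last side. -/
def hL (c : ConL P A) (F : GF C) : (F.cs P).Tot.V →ₗ[ℂ] (F.cs P).Tot.V :=
  shOf F P (fun k => (-1 : ℂ) ^ (k + 1)) c.s

theorem hL_apply (c : ConL P A) (F : GF C) (v : (F.cs P).Tot.V) (k : ℕ) :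
    (hL c F v : ∀ k, (F.obj (P.P k)).V) k =
      (-1 : ℂ) ^ (k + 1) • (F.map (c.s k)).f (v (k + 1)) := rfl

/-- **Contraction** on the last side: `d H + H d = 1 - aug r`. -/
theorem hL_eq (c : ConL P A) (F : GF C) (v : (F.cs P).Tot.V) :
    (F.cs P).Tot.d (hL c F v) + hL c F ((F.cs P).Tot.d v) =
      v - (augOf F P c.e c.aug).tot.f ((retOf F P c.r).f v) :=
  Cos.htpy_last (augOf F P c.e c.aug) (fun k => F.map (c.s k)) (F.map c.r)
    (fun x => F.map_eq c.zero x) (fun k x => F.map_eq_id (c.last k) x)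
    (fun k i hi x => F.map_eq (c.rest k i hi) x) v

/-- The image of a semi-cosimplicial object under a functor. -/
def mapCO {C' : Type 1} [Category.{0} C'] (Φ : C ⥤ C') (P : CO C) : CO C' where
  P k := Φ.obj (P.P k)
  fc k i := Φ.map (P.fc k i)
  rel k i j hi hj := by rw [← Φ.map_comp, ← Φ.map_comp, P.rel k i j hi hj]

/-- The restriction of a functor with values in graded differential spaces. -/
abbrev resG {C' : Type 1} [Category.{0} C'] (Φ : C ⥤ C') (F : GF C') : GF C where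
  obj X := F.obj (Φ.obj X)
  map φ := F.map (Φ.map φ)
  map_id X x := by rw [Φ.map_id, F.map_id]
  map_comp φ ψ x := by rw [Φ.map_comp, F.map_comp]

end

end Vale.Agent.P286EX
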