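import Vale.Agent.P286EX.Cop
import Vale.Agent.P286EX9.Htp

/-!
# Semi-cosimplicial points of the charts
-/

set_option linter.all false

namespace Vale.Agent.P286EX

open CategoryTheory Matrix Vale.Agent.P286 Vale.Agent.P286.St Vale.Agent.P286E
open Vale.Agent.P286.H761 (CO COM ConF ConL underCO)

noncomputable section

variable {I : Type} [SmallCategory I] {D : CD I} {G : Grp} {s : ℂ}

/-- A point of the chart `i`. -/
structure QF (D : CD I) (i : I) : Type 1 where
  A : SmAlg
  x : D.C i →ₐ[ℂ] A.R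
  Y : Fin 3 → A.R
  sq : Y ⬝ᵥ Y = x (D.f i)

/-- The test object. -/
abbrev QF.ob {i : I} (X : QF D i) : QO D := ⟨i, X.A, X.x, X.Y, X.sq⟩

/-- A test object as a point of its chart. -/
abbrev fb (X : QO D) : QF D X.i := ⟨X.A, X.x, X.Y, X.sq⟩

theorem dl_of_α {i : I} {X Y : QF D i} {u : Ar G s X.ob Y.ob} (h : QM.α u = 𝟙 i) :
    (QS D G s).dl u = 1 :=
  (congrArg (fun β : i ⟶ i => Y.x (D.r β)) h).trans ((congrArg Y.x (D.r_id i)).trans (map_one _))

variable (K : GK G) (xd : XD D)

/-- The first object and the first face. -/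
structure Stt (K : GK G) (D : CD I) (s : ℂ) (i : I) : Type 1 where
  X : QF D i
  d : Ar G s X.ob (cop K X.ob)
  d_α : QM.α d = 𝟙 i
  h : d ≫ copM K (inl K s X.ob) = d ≫ copM K d

namespace Stt

variable {K} {i j k : I} (S : Stt K D s i)

/-- The points. -/
def PF : ℕ → QF D i
  | 0 => S.X
  | (k + 1) => fb (cop K (PF k).ob)

/-- The objects. -/
abbrev P (n : ℕ) : QO D := (S.PF n).ob

theorem P_succ (n : ℕ) : S.P (n + 1) = cop K (S.P n) := rfl

/-- The faces. -/
def fc : ∀ k : ℕ, ℕ → Ar G s (S.P k) (S.P (k + 1))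
  | 0, i => if i = 0 then S.d else inl K s S.X.ob
  | (k + 1), i => if i ≤ k + 1 then copM K (fc k i) else inl K s (S.P (k + 1))

theorem fc_zero_zero : S.fc 0 0 = S.d := rfl

theorem fc_last (k : ℕ) : S.fc k (k + 1) = inl K s (S.P k) := by
  cases k with
  | zero => rfl
  | succ k => exact if_neg (by omega)

theorem fc_succ (k i : ℕ) (h : i ≤ k + 1) : S.fc (k + 1) i = copM K (S.fc k i) := if_pos h

theorem fc_α : ∀ n m : ℕ, QM.α (S.fc n m) = 𝟙 i
  | 0, m => by
    by_cases h : m = 0
    · subst h; exact S.d_α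
    · exact congrArg QM.α (if_neg h)
  | (n + 1), m => by
    by_cases h : m ≤ n + 1
    · exact (congrArg QM.α (if_pos h)).trans ((copM_α K _).trans (fc_α n m))
    · exact congrArg QM.α (if_neg h)

theorem rel : ∀ k i j : ℕ, i ≤ j → j ≤ k + 1 →
    S.fc k i ≫ S.fc (k + 1) (j + 1) = S.fc k j ≫ S.fc (k + 1) i := by
  have hlast : ∀ k i : ℕ, i ≤ k + 1 →
      S.fc k i ≫ S.fc (k + 1) (k + 1 + 1) = S.fc k (k + 1) ≫ S.fc (k + 1) i := by
    intro k i hi
    rw [fc_last S (k + 1), fc_last S k, fc_succ S k i hi]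
    exact (inl_copM K (S.fc k i)).symm
  intro k
  induction k with
  | zero =>
    intro i j hi hj
    obtain rfl | rfl : j = 0 + 1 ∨ j = 0 := by omega
    · exact hlast 0 i hi
    · obtain rfl : i = 0 := by omega
      rw [fc_succ S 0 (0 + 1) le_rfl, fc_succ S 0 0 (Nat.zero_le _), fc_last S 0]
      exact S.h
  | succ k ih =>
    intro i j hi hj
    rcases Nat.lt_or_ge j (k + 2) with h | h
    · have e3 := fc_succ S k i (by omega)
      have e4 := fc_succ S k j (by omega)
      rw [fc_succ S (k + 1) (j + 1) (by omega), fc_succ S (k + 1) i (by omega)]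
      exact (((congrArg (fun t => t ≫ copM K (S.fc (k + 1) (j + 1))) e3).trans
        (copM_comp K _ _).symm).trans (congrArg (copM K) (ih i j hi (by omega)))).trans
        ((copM_comp K _ _).trans (congrArg (fun t => t ≫ copM K (S.fc (k + 1) i)) e4).symm)
    · obtain rfl : j = k + 1 + 1 := by omega
      exact hlast (k + 1) i hi

/-- The semi-cosimplicial object. -/
def co : CO (QS D G s).C := ⟨S.P, S.fc, S.rel⟩

/-- A morphism of initial data. -/
structure Map (S : Stt K D s i) (T : Stt K D s j) : Type where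
  f : Ar G s S.X.ob T.X.ob
  h : S.d ≫ copM K f = f ≫ T.d

variable {S} {T : Stt K D s j} {U : Stt K D s k}

/-- The induced morphisms. -/
def Map.P (u : Map S T) : ∀ k, Ar G s (S.P k) (T.P k)
  | 0 => u.f
  | (k + 1) => copM K (Map.P u k)

theorem Map.P_zero (u : Map S T) : u.P 0 = u.f := rfl

theorem Map.P_succ (u : Map S T) (n : ℕ) : u.P (n + 1) = copM K (u.P n) := rfl

theorem Map.P_α (u : Map S T) : ∀ n, QM.α (u.P n) = QM.α u.f
  | 0 => rfl
  | (n + 1) => (copM_α K _).trans (Map.P_α u n)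

theorem Map.face (u : Map S T) : ∀ k i, i ≤ k + 1 →
    S.fc k i ≫ u.P (k + 1) = u.P k ≫ T.fc k i := by
  have hlast : ∀ k, S.fc k (k + 1) ≫ u.P (k + 1) = u.P k ≫ T.fc k (k + 1) := by
    intro k
    rw [fc_last, fc_last]
    exact inl_copM K _
  intro k
  induction k with
  | zero =>
    intro i hi
    obtain rfl | rfl : i = 0 + 1 ∨ i = 0 := by omega
    · exact hlast 0
    · exact u.h
  | succ k ih =>
    intro i hi
    rcases Nat.lt_or_ge i (k + 2) with h | h
    · rw [fc_succ _ k i (by omega), fc_succ _ k i (by omega)]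
      exact ((copM_comp K _ _).symm.trans (congrArg (copM K) (ih i (by omega)))).trans
        (copM_comp K _ _)
    · obtain rfl : i = k + 1 + 1 := by omega
      exact hlast (k + 1)

/-- The induced morphism of semi-cosimplicial objects. -/
def Map.co (u : Map S T) : COM S.co T.co := ⟨u.P, u.face⟩

/-- The identity. -/
def Map.id (S : Stt K D s i) : Map S S :=
  ⟨idA G s _, by rw [copM_id, ar_comp_id, ar_id_comp]⟩

/-- The composition (first `u`, then `v`). -/
def Map.comp (u : Map S T) (v : Map T U) : Map S U :=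
  ⟨u.f ≫ v.f, by rw [copM_comp, ← ar_assoc, u.h, ar_assoc, v.h, ar_assoc]⟩

theorem Map.id_P (S : Stt K D s i) (k : ℕ) : (Map.id S).P k = idA G s (S.P k) := by
  induction k with
  | zero => rfl
  | succ k ih => exact (congrArg (copM K) ih).trans (copM_id K _)

theorem Map.comp_P (u : Map S T) (v : Map T U) (k : ℕ) :
    (u.comp v).P k = u.P k ≫ v.P k := by
  induction k with
  | zero => rfl
  | succ k ih => exact (congrArg (copM K) ih).trans (copM_comp K _ _)

theorem Map.P_congr {u v : Map S T} (h : u.f = v.f) (k : ℕ) : u.P k = v.P k := by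
  induction k with
  | zero => exact h
  | succ k ih => exact congrArg (copM K) ih

end Stt

theorem inr_copM' {i : I} {X Y : QF D i} (u : Ar G s X.ob Y.ob) (h : QM.α u = 𝟙 i) :
    inr K xd s X.ob ≫ copM K u = inr K xd s Y.ob := by
  rw [inr_copM, h]
  exact (congrArg (· ≫ inr K xd s Y.ob) (Za_id K xd i)).trans (ar_id_comp _)

/-- The powers `Y_n` of the universal point. -/
def ptS (s : ℂ) (i : I) : Stt K D s i :=
  ⟨fb (Zo xd i), inr K xd s (Zo xd i), rfl,
    (inr_copM K xd _).trans (inr_copM K xd (inr K xd s (Zo xd i))).symm⟩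

theorem ptS_zero (i : I) : (ptS K xd s i).P 0 = Zo xd i := rfl

/-- The objects under `A`: the coproducts of `A` with the powers of the universal point. -/
def undS (s : ℂ) (A : QO D) : Stt K D s A.i :=
  ⟨fb (cop K A), copM K (inl K s A), copM_α K _,
    ((copM_comp K _ _).symm.trans (congrArg (copM K) (inl_copM K _).symm)).trans
      (copM_comp K _ _)⟩

theorem undS_zero (A : QO D) : (undS K s A).P 0 = cop K A := rfl

/-- Functoriality of the objects under `A`. -/
def undM {A B : QO D} (φ : Ar G s A B) : Stt.Map (undS K s A) (undS K s B) :=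
  ⟨copM K φ, ((copM_comp K _ _).symm.trans (congrArg (copM K) (inl_copM K φ))).trans
    (copM_comp K _ _)⟩

/-- The comparison from the powers of the universal point. -/
def jS (s : ℂ) (A : QO D) : Stt.Map (ptS K xd s A.i) (undS K s A) :=
  ⟨inr K xd s A, (inr_copM K xd (inr K xd s A)).trans (inr_copM K xd (inl K s A)).symm⟩

/-- Functoriality of the powers of the universal point. -/
def ptM (s : ℂ) {i j : I} (α : i ⟶ j) : Stt.Map (ptS K xd s i) (ptS K xd s j) :=
  ⟨Za K xd s α, inr_copM K xd (Za K xd s α)⟩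

theorem undM_α {A B : QO D} (φ : Ar G s A B) (n : ℕ) : QM.α ((undM K φ).P n) = QM.α φ :=
  ((undM K φ).P_α n).trans (copM_α K φ)

theorem jS_α (A : QO D) (n : ℕ) : QM.α ((jS K xd s A).P n) = 𝟙 A.i := (jS K xd s A).P_α n

theorem ptM_α {i j : I} (α : i ⟶ j) (n : ℕ) : QM.α ((ptM K xd s α).P n) = α :=
  (ptM K xd s α).P_α n

theorem jS_undM {A B : QO D} (φ : Ar G s A B) (k : ℕ) :
    (jS K xd s A).P k ≫ (undM K φ).P k = (ptM K xd s (QM.α φ)).P k ≫ (jS K xd s B).P k := by
  rw [← Stt.Map.comp_P, ← Stt.Map.comp_P]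
  exact Stt.Map.P_congr (inr_copM K xd φ) k

theorem undM_id (A : QO D) (k : ℕ) :
    (undM K (idA G s A)).P k = idA G s ((undS K s A).P k) := by
  rw [← Stt.Map.id_P]
  exact Stt.Map.P_congr (copM_id K A) k

theorem undM_comp {A B C : QO D} (φ : Ar G s A B) (ψ : Ar G s B C) (k : ℕ) :
    (undM K (φ ≫ ψ)).P k = (undM K φ).P k ≫ (undM K ψ).P k := by
  rw [← Stt.Map.comp_P]
  exact Stt.Map.P_congr (copM_comp K φ ψ) k

theorem ptM_id (i : I) (k : ℕ) :
    (ptM K xd s (𝟙 i)).P k = idA G s ((ptS K xd s i).P k) := by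
  rw [← Stt.Map.id_P]
  exact Stt.Map.P_congr (Za_id K xd i) k

theorem ptM_comp {i j l : I} (α : i ⟶ j) (β : j ⟶ l) (k : ℕ) :
    (ptM K xd s (α ≫ β)).P k = (ptM K xd s α).P k ≫ (ptM K xd s β).P k := by
  rw [← Stt.Map.comp_P]
  exact Stt.Map.P_congr (Za_comp K xd α β) k

/-! ### The contraction under `A` -/

theorem fold_α (A : QO D) : QM.α (fold K s A) = 𝟙 A.i := rfl

/-- The codegeneracies. -/
def sU (s : ℂ) (A : QO D) : ∀ k, Ar G s ((undS K s A).P (k + 1)) ((undS K s A).P k)
  | 0 => copM K (fold K s A)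
  | (k + 1) => copM K (sU s A k)

theorem sU_α (A : QO D) : ∀ k, QM.α (sU K s A k) = 𝟙 A.i
  | 0 => copM_α K _
  | (k + 1) => (copM_α K _).trans (sU_α A k)

theorem fc_sU (A : QO D) (k : ℕ) : (undS K s A).fc k 0 ≫ sU K s A k = idA G s _ := by
  induction k with
  | zero =>
    exact ((copM_comp K _ _).symm.trans (congrArg (copM K) (inl_fold K A))).trans (copM_id K _)
  | succ k ih =>
    rw [Stt.fc_succ _ k 0 (Nat.zero_le _)]
    exact ((copM_comp K _ _).symm.trans (congrArg (copM K) ih)).trans (copM_id K _)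

theorem fc_sU_succ (A : QO D) : ∀ k, ∀ i ≤ k + 1,
    (undS K s A).fc (k + 1) (i + 1) ≫ sU K s A (k + 1) = sU K s A k ≫ (undS K s A).fc k i := by
  have hlast : ∀ k, (undS K s A).fc (k + 1) (k + 1 + 1) ≫ sU K s A (k + 1)
      = sU K s A k ≫ (undS K s A).fc k (k + 1) := by
    intro k
    rw [Stt.fc_last, Stt.fc_last]
    exact inl_copM K _
  intro k
  induction k with
  | zero =>
    intro i hi
    obtain rfl | rfl : i = 0 + 1 ∨ i = 0 := by omega
    · exact hlast 0
    · rw [Stt.fc_succ _ 0 (0 + 1) le_rfl, Stt.fc_last]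
      exact ((copM_comp K _ _).symm.trans (congrArg (copM K) (inl_copM K (fold K s A)))).trans
        (copM_comp K _ _)
  | succ k ih =>
    intro i hi
    rcases Nat.lt_or_ge i (k + 2) with h | h
    · rw [Stt.fc_succ _ (k + 1) (i + 1) (by omega), Stt.fc_succ _ k i (by omega)]
      exact ((copM_comp K _ _).symm.trans (congrArg (copM K) (ih i (by omega)))).trans
        (copM_comp K _ _)
    · obtain rfl : i = k + 1 + 1 := by omega
      exact hlast (k + 1)

/-- The contraction data of the objects under `A`. -/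
def undCon (s : ℂ) (A : QO D) : ConF (C := (QS D G s).C) (undS K s A).co A where
  e := inl K s A
  aug := inl_copM K (inl K s A)
  r := fold K s A
  s := sU K s A
  e_r := inl_fold K A
  one := inl_copM K (fold K s A)
  first := fc_sU K A
  rest := fc_sU_succ K A

/-- The structure arrows from `A`. -/
def uA (s : ℂ) (A : QO D) : ∀ k, Ar G s A ((undS K s A).P k)
  | 0 => inl K s A
  | (k + 1) => uA s A k ≫ inl K s ((undS K s A).P k)

theorem uA_α (A : QO D) : ∀ k, QM.α (uA K s A k) = 𝟙 A.i
  | 0 => rfl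
  | (k + 1) => (Category.comp_id _).trans (uA_α A k)

theorem uA_h (A : QO D) : ∀ k, QM.h (uA K s A k) = 1
  | 0 => rfl
  | (k + 1) => (Matrix.one_mul _).trans
      ((congrArg (fun m => Matrix.map m (cL K _)) (uA_h A k)).trans (map_one' _))

theorem uA_fc (A : QO D) : ∀ k i, i ≤ k + 1 →
    uA K s A k ≫ (undS K s A).fc k i = uA K s A (k + 1) := by
  intro k
  induction k with
  | zero =>
    intro i hi
    obtain rfl | rfl : i = 0 + 1 ∨ i = 0 := by omega
    · rfl
    · exact inl_copM K (inl K s A)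
  | succ k ih =>
    intro i hi
    rcases Nat.lt_or_ge i (k + 2) with h | h
    · rw [Stt.fc_succ _ k i (by omega)]
      exact (ar_assoc _ _ _).trans ((congrArg (uA K s A k ≫ ·) (inl_copM K _)).trans
        ((ar_assoc _ _ _).symm.trans (congrArg (· ≫ _) (ih i (by omega)))))
    · obtain rfl : i = k + 1 + 1 := by omega
      rw [Stt.fc_last]
      rfl

theorem uA_sU (A : QO D) (k : ℕ) : uA K s A (k + 1) ≫ sU K s A k = uA K s A k := by
  induction k with
  | zero =>
    exact (ar_assoc _ _ _).trans ((congrArg (inl K s A ≫ ·) (inl_copM K (fold K s A))).trans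
      ((ar_assoc _ _ _).symm.trans ((congrArg (· ≫ _) (inl_fold K A)).trans (ar_id_comp _))))
  | succ k ih =>
    exact (ar_assoc _ _ _).trans ((congrArg (uA K s A (k + 1) ≫ ·) (inl_copM K (sU K s A k))).trans
      ((ar_assoc _ _ _).symm.trans (congrArg (· ≫ _) ih)))

/-- The structure arrows are natural in `A`. -/
theorem uA_undM {A B : QO D} (φ : Ar G s A B) (k : ℕ) :
    uA K s A k ≫ (undM K φ).P k = φ ≫ uA K s B k := by
  induction k with
  | zero => exact inl_copM K φ
  | succ k ih =>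
    exact (ar_assoc _ _ _).trans ((congrArg (uA K s A k ≫ ·) (inl_copM K ((undM K φ).P k))).trans
      ((ar_assoc _ _ _).symm.trans ((congrArg (· ≫ _) ih).trans (ar_assoc _ _ _))))

end

end Vale.Agent.P286EX
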