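import Vale.Agent.P286EX9.Cos

/-!
# The contractions under a test object and under the universal point
-/

set_option linter.all false

namespace Vale.Agent.P286EX

open CategoryTheory Matrix Vale.Agent.P286 Vale.Agent.P286.St Vale.Agent.P286E
open Vale.Agent.P286.H761 (CO COM ConF ConL underCO)

noncomputable section

variable {I : Type} [SmallCategory I] {D : CD I} {G : Grp} {s : ℂ} (K : GK G) (xd : XD D)

/-- A point as a test object. -/
abbrev qo (G : Grp) (s : ℂ) (A : QO D) : (QS D G s).C := A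

/-- The objects under `A`. -/
abbrev Und (G : Grp) (s : ℂ) (A : QO D) : Type 1 := Under (qo G s A)

/-- An arrow as an object under its source. -/
abbrev umk {A B : QO D} (u : Ar G s A B) : Und G s A := Under.mk (X := qo G s A) (Y := qo G s B) u

/-- An arrow of objects under `A`. -/
abbrev uhm {A B C : QO D} {u : Ar G s A B} {v : Ar G s A C} (w : Ar G s B C) (h : u ≫ w = v) :
    umk u ⟶ umk v := Under.homMk w h

theorem uhm_ext {A : QO D} {X Y : Und G s A} {a b : X ⟶ Y} (h : a.right = b.right) : a = b :=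
  Under.UnderMorphism.ext h

/-- The semi-cosimplicial object under `A`. -/
def undCO (s : ℂ) (A : QO D) : CO (Und G s A) :=
  underCO (A := qo G s A) (undS K s A).co (uA K s A) (uA_fc K A)

theorem undCO_P (A : QO D) (k : ℕ) : (undCO K s A).P k = umk (uA K s A k) := rfl

theorem undCO_fc (A : QO D) (k i : ℕ) (h : i ≤ k + 1) :
    (undCO K s A).fc k i = uhm ((undS K s A).fc k i) (uA_fc K A k i h) := dif_pos h

theorem undCO_right (A : QO D) (k i : ℕ) (h : i ≤ k + 1) :
    ((undCO K s A).fc k i).right = (undS K s A).fc k i := by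
  rw [undCO_fc K A k i h]; rfl

/-- The contraction data under `A`. -/
def undConU (s : ℂ) (A : QO D) : ConF (undCO K s A) (umk (idA G s A)) where
  e := uhm (inl K s A) (ar_id_comp _)
  aug := by
    rw [undCO_fc K A 0 0 (by omega), undCO_fc K A 0 1 (by omega)]
    exact uhm_ext (inl_copM K (inl K s A))
  r := uhm (fold K s A) (inl_fold K A)
  s k := uhm (sU K s A k) (uA_sU K A k)
  e_r := uhm_ext (inl_fold K A)
  one := by
    rw [undCO_fc K A 0 1 (by omega)]
    exact uhm_ext (undCon K s A).one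
  first k := by
    rw [undCO_fc K A k 0 (by omega)]
    exact uhm_ext (fc_sU K A k)
  rest k i hi := by
    rw [undCO_fc K A (k + 1) (i + 1) (by omega), undCO_fc K A k i hi]
    exact uhm_ext (fc_sU_succ K A k i hi)

/-! ### The coproducts of the powers of the universal point with the universal point -/

/-- The retraction of a coproduct with two universal points. -/
def fold2 (s : ℂ) (X : QO D) : Ar G s (cop K (cop K X)) (cop K X) :=
  dsc K (idA G s (cop K X)) (cg K X) (cg_pt K X)

theorem fold2_α (X : QO D) : QM.α (fold2 K s X) = 𝟙 X.i := rfl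

theorem fold2_h (X : QO D) : QM.h (fold2 K s X) = 1 := rfl

theorem inl_fold2 (X : QO D) : inl K s (cop K X) ≫ fold2 K s X = idA G s (cop K X) :=
  inl_dsc K _ _ _

theorem inr_fold2 (X : QO D) : inr K xd s (cop K X) ≫ fold2 K s X = inr K xd s X :=
  inr_dsc K xd _ _ _

include xd in
theorem copM_inl_fold2 (X : QO D) : copM K (inl K s X) ≫ fold2 K s X = idA G s (cop K X) := by
  refine cop_ext' K xd ?_ ?_
  · rw [← ar_assoc, inl_copM, ar_assoc, inl_fold2]
  · rw [← ar_assoc, inr_copM' K xd (X := fb X) (Y := fb (cop K X)) (inl K s X) rfl, ar_comp_id]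
    exact inr_fold2 K xd X

include xd in
theorem fold2_nat {X Y : QO D} (φ : Ar G s X Y) :
    copM K (copM K φ) ≫ fold2 K s Y = fold2 K s X ≫ copM K φ := by
  refine cop_ext' K xd ?_ ?_
  · rw [← ar_assoc, inl_copM, ar_assoc, inl_fold2, ← ar_assoc, inl_fold2, ar_comp_id, ar_id_comp]
  · rw [← ar_assoc, inr_copM, ar_assoc, inr_fold2, ← ar_assoc, inr_fold2, copM_α]
    exact (inr_copM K xd φ).symm

theorem inr_foldZ (i : I) : inr K xd s (Zo xd i) ≫ fold K s (Zo xd i) = idA G s (Zo xd i) :=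
  (inr_fold K xd _).trans (zA_Zo K xd i)

theorem foldZ_inr (i : I) : copM K (inr K xd s (Zo xd i)) ≫ fold2 K s (Zo xd i) =
    fold K s (Zo xd i) ≫ inr K xd s (Zo xd i) := by
  refine cop_ext' K xd ?_ ?_
  · rw [← ar_assoc, inl_copM, ar_assoc, inl_fold2, ← ar_assoc, inl_fold, ar_comp_id, ar_id_comp]
  · rw [← ar_assoc, inr_copM' K xd (X := fb (Zo xd i)) (Y := fb (cop K (Zo xd i)))
      (inr K xd s (Zo xd i)) rfl, ← ar_assoc, inr_foldZ, ar_id_comp]
    exact inr_fold2 K xd _

/-- The objects `Y_n ⊔ Z`. -/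
def conCO (s : ℂ) (i : I) : CO (QS D G s).C where
  P k := cop K ((ptS K xd s i).P k)
  fc k j := copM K ((ptS K xd s i).fc k j)
  rel k a b ha hb := ((copM_comp K _ _).symm.trans
    (congrArg (copM K) ((ptS K xd s i).rel k a b ha hb))).trans (copM_comp K _ _)

theorem conCO_α (i : I) (k j : ℕ) : QM.α ((conCO K xd s i).fc k j) = 𝟙 i :=
  (copM_α K _).trans ((ptS K xd s i).fc_α k j)

/-- The contraction data. -/
def conCon (s : ℂ) (i : I) : ConL (C := (QS D G s).C) (conCO K xd s i) (Zo xd i) where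
  e := inr K xd s (Zo xd i)
  aug := (inr_copM K xd (inr K xd s (Zo xd i))).trans (inr_copM K xd (inl K s (Zo xd i))).symm
  r := fold K s (Zo xd i)
  s k := fold2 K s ((ptS K xd s i).P k)
  e_r := inr_foldZ K xd i
  zero := foldZ_inr K xd i
  last k := (congrArg (fun t => copM K t ≫ fold2 K s ((ptS K xd s i).P k))
    ((ptS K xd s i).fc_last k)).trans (copM_inl_fold2 K xd _)
  rest k j hj := (congrArg (fun t => copM K t ≫ fold2 K s ((ptS K xd s i).P (k + 1)))
    ((ptS K xd s i).fc_succ k j hj)).trans (fold2_nat K xd _)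

/-- The structure arrows from the universal point. -/
def uZ (s : ℂ) (i : I) (k : ℕ) : Ar G s (Zo xd i) (cop K ((ptS K xd s i).P k)) :=
  inr K xd s ((ptS K xd s i).P k)

theorem uZ_α (i : I) (k : ℕ) : QM.α (uZ K xd s i k) = 𝟙 i := rfl

theorem uZ_fc (i : I) (k j : ℕ) :
    uZ K xd s i k ≫ copM K ((ptS K xd s i).fc k j) = uZ K xd s i (k + 1) :=
  inr_copM' K xd _ ((ptS K xd s i).fc_α k j)

/-- The objects `Y_n ⊔ Z` under `Z`. -/
def conCOU (s : ℂ) (i : I) : CO (Und G s (Zo xd i)) :=
  underCO (A := qo G s (Zo xd i)) (conCO K xd s i) (uZ K xd s i) fun k j _ => uZ_fc K xd i k j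

theorem conCOU_P (i : I) (k : ℕ) : (conCOU K xd s i).P k = umk (uZ K xd s i k) := rfl

theorem conCOU_fc (i : I) (k j : ℕ) (h : j ≤ k + 1) : (conCOU K xd s i).fc k j =
    uhm (copM K ((ptS K xd s i).fc k j)) (uZ_fc K xd i k j) := dif_pos h

theorem conCOU_right (i : I) (k j : ℕ) (h : j ≤ k + 1) :
    ((conCOU K xd s i).fc k j).right = copM K ((ptS K xd s i).fc k j) := by
  rw [conCOU_fc K xd i k j h]; rfl

/-- The contraction data under `Z`. -/
def conConU (s : ℂ) (i : I) : ConL (conCOU K xd s i) (umk (idA G s (Zo xd i))) where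
  e := uhm (inr K xd s (Zo xd i)) (ar_id_comp _)
  aug := by
    rw [conCOU_fc K xd i 0 0 (by omega), conCOU_fc K xd i 0 1 (by omega)]
    exact uhm_ext (conCon K xd s i).aug
  r := uhm (fold K s (Zo xd i)) (inr_foldZ K xd i)
  s k := uhm (fold2 K s ((ptS K xd s i).P k)) (inr_fold2 (s := s) K xd ((ptS K xd s i).P k))
  e_r := uhm_ext (inr_foldZ K xd i)
  zero := by
    rw [conCOU_fc K xd i 0 0 (by omega)]
    exact uhm_ext (foldZ_inr K xd i)
  last k := by
    rw [conCOU_fc K xd i k (k + 1) le_rfl]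
    exact uhm_ext ((conCon K xd s i).last k)
  rest k j hj := by
    rw [conCOU_fc K xd i (k + 1) j (by omega), conCOU_fc K xd i k j hj]
    exact uhm_ext ((conCon K xd s i).rest k j hj)

/-- The inclusions `Y_n → Y_n ⊔ Z`. -/
def inlCO (s : ℂ) (i : I) : COM (ptS K xd s i).co (conCO K xd s i) :=
  ⟨fun k => inl K s ((ptS K xd s i).P k), fun k j _ => (inl_copM K ((ptS K xd s i).fc k j)).symm⟩

/-- Functoriality of `Y_n ⊔ Z`. -/
def conM (s : ℂ) {i j : I} (α : i ⟶ j) : COM (conCO K xd s i) (conCO K xd s j) :=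
  ⟨fun k => copM K ((ptM K xd s α).P k), fun k a ha => ((copM_comp K _ _).symm.trans
    (congrArg (copM K) ((ptM K xd s α).face k a ha))).trans (copM_comp K _ _)⟩

theorem uZ_conM {i j : I} (α : i ⟶ j) (k : ℕ) :
    uZ K xd s i k ≫ copM K ((ptM K xd s α).P k) = Za K xd s α ≫ uZ K xd s j k :=
  (inr_copM K xd _).trans (by rw [ptM_α]; rfl)

/-! ### The canonical arrows from the universal point -/

theorem zA_α (X : QO D) : QM.α (zA K xd s X) = 𝟙 X.i := rfl

theorem zA_h (X : QO D) : QM.h (zA K xd s X) = 1 := rfl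

theorem Za_α {i j : I} (α : i ⟶ j) : QM.α (Za K xd s α) = α := rfl

theorem Za_h {i j : I} (α : i ⟶ j) : QM.h (Za K xd s α) = 1 := rfl

theorem zA_comp {X Y : QO D} (u : Ar G s X Y) :
    zA K xd s X ≫ u = zar K xd s Y (QM.α u) (QM.h u) (QM.pt u) :=
  zar_ext K xd (Category.id_comp _) ((congrArg (QM.h u * ·) (map_one' _)).trans (Matrix.mul_one _))

theorem zA_inl (X : QO D) : zA K xd s X ≫ inl K s X = zA K xd s (cop K X) := zA_comp K xd _

theorem zA_nat {X Y : QO D} (u : Ar G s X Y) (h : QM.h u = 1) :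
    zA K xd s X ≫ u = Za K xd s (QM.α u) ≫ zA K xd s Y :=
  zar_ext K xd ((Category.id_comp _).trans (Category.comp_id _).symm)
    ((congrArg₂ (· * ·) h (map_one' _)).trans (congrArg (1 * ·) (map_one' _)).symm)

theorem ptM_h {i j : I} (α : i ⟶ j) : ∀ k, QM.h ((ptM K xd s α).P k) = 1
  | 0 => rfl
  | (k + 1) => (copM_h K _).trans
      ((congrArg (fun m => Matrix.map m (cL K _)) (ptM_h α k)).trans (map_one' _))

/-- The fold `Y_n(X) → X` is compatible with the comparison: `jS ≫ undM` over `zA`. -/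
theorem jS_eq (X : QO D) : inr K xd s X = inr K xd s (Zo xd X.i) ≫ copM K (zA K xd s X) :=
  (inr_copM' K xd (X := fb (Zo xd X.i)) (Y := fb X) (zA K xd s X) rfl).symm

end

end Vale.Agent.P286EX
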